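import Mathlib

/-!
# Leverage rows

For a finite family `vt` in `ℝ^d` (indexed by a finite set `B`) we diagonalise the second moment
matrix `∑ vt vtᵀ`, with eigenvalues `μ j`, and define rows `l v j = w j * ⟪vt v, u j⟫` with
`w j = √(1 + 1 / μ j)`.  The columns then have square norm at most `‖vt v‖ ^ 2 + 1` (the leverage
of a vector is at most one) and the weights `β j = 1 / w j` have `∑ β j ^ 2 ≤ tr = ∑ ‖vt v‖ ^ 2`.
-/

open Finset

namespace Vale.Agent.P262R

variable {ι : Type*} {d : ℕ}

/-- An orthonormal basis (given by the rows of the square matrix `U`) diagonalising the second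
moment matrix of a finite family. -/
theorem spectral_rows (B : Finset ι) (vt : ι → Fin d → ℝ) :
    ∃ (U : Fin d → Fin d → ℝ) (μ : Fin d → ℝ),
      (∀ x : Fin d → ℝ, ∑ j, (∑ i, x i * U j i) ^ 2 = ∑ i, x i ^ 2) ∧
      (∀ j k, ∑ w ∈ B, (∑ i, vt w i * U j i) * (∑ i, vt w i * U k i) = if j = k then μ j else 0) := by
  classical
  let E := EuclideanSpace ℝ (Fin d)
  let toE : (Fin d → ℝ) → E := fun x => WithLp.toLp 2 x
  have hinner : ∀ (x : Fin d → ℝ) (y : E), inner ℝ (toE x) y = ∑ i, x i * y i := by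
    intro x y
    simp only [PiLp.inner_apply, toE]
    refine Finset.sum_congr rfl fun i _ => ?_
    simp [mul_comm]
  let T : E →ₗ[ℝ] E :=
    { toFun := fun x => ∑ n ∈ B, inner ℝ (toE (vt n)) x • toE (vt n)
      map_add' := by
        intro x y
        simp only [inner_add_right, add_smul, Finset.sum_add_distrib]
      map_smul' := by
        intro c x
        simp only [inner_smul_right, RingHom.id_apply, Finset.smul_sum, smul_smul] }
  have hT : T.IsSymmetric := by
    intro x y
    show inner ℝ (∑ n ∈ B, inner ℝ (toE (vt n)) x • toE (vt n)) y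
      = inner ℝ x (∑ n ∈ B, inner ℝ (toE (vt n)) y • toE (vt n))
    rw [sum_inner, inner_sum]
    refine Finset.sum_congr rfl fun n _ => ?_
    rw [inner_smul_left, inner_smul_right, real_inner_comm x (toE (vt n))]
    simp
    ring
  have hd : Module.finrank ℝ E = d := by simp [E]
  let u := hT.eigenvectorBasis hd
  refine ⟨fun j i => u j i, hT.eigenvalues hd, fun x => ?_, fun j k => ?_⟩
  · have h1 := u.sum_sq_norm_inner_right (toE x)
    have h2 : ‖toE x‖ ^ 2 = ∑ i, x i ^ 2 := by
      rw [EuclideanSpace.norm_sq_eq]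
      simp [toE]
    rw [← h2, ← h1]
    refine Finset.sum_congr rfl fun j _ => ?_
    rw [Real.norm_eq_abs, sq_abs, real_inner_comm, hinner]
  · have h1 : T (u j) = hT.eigenvalues hd j • u j := by
      have := hT.apply_eigenvectorBasis hd j
      simp [u, this]
    have h2 : ∑ w ∈ B, (∑ i, vt w i * u j i) * (∑ i, vt w i * u k i) = inner ℝ (T (u j)) (u k) := by
      show _ = inner ℝ (∑ n ∈ B, inner ℝ (toE (vt n)) (u j) • toE (vt n)) (u k)
      rw [sum_inner]
      refine Finset.sum_congr rfl fun n _ => ?_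
      rw [inner_smul_left, hinner, hinner]
      simp
    show ∑ w ∈ B, (∑ i, vt w i * u j i) * (∑ i, vt w i * u k i) = _
    rw [h2, h1, inner_smul_left]
    by_cases h : j = k
    · subst h
      rw [real_inner_self_eq_norm_sq, u.orthonormal.1 j]
      simp
    · rw [u.orthonormal.2 h]
      simp [h]

/-- The leverage of a vector of the family is at most one. -/
lemma leverage_le (B : Finset ι) (A : ι → Fin d → ℝ) (μ : Fin d → ℝ)
    (h : ∀ j k, ∑ w ∈ B, A w j * A w k = if j = k then μ j else 0) {v : ι} (hv : v ∈ B) :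
    ∑ j, (A v j ^ 2 / μ j) ≤ 1 := by
  classical
  set y : Fin d → ℝ := fun j => A v j / μ j with hy
  set Λ : ℝ := ∑ j, (A v j ^ 2 / μ j) with hΛ
  have hμ0 : ∀ j, μ j = 0 → A v j = 0 := by
    intro j hj
    have h1 := h j j
    simp only [if_true, hj] at h1
    have h2 : ∀ w ∈ B, 0 ≤ A w j * A w j := fun w _ => mul_self_nonneg _
    have h3 := (Finset.sum_eq_zero_iff_of_nonneg h2).1 h1 v hv
    exact mul_self_eq_zero.1 h3
  have hΛ0 : 0 ≤ Λ := by
    refine Finset.sum_nonneg fun j _ => ?_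
    have h1 := h j j
    simp only [if_true] at h1
    have h2 : 0 ≤ μ j := by
      rw [← h1]
      exact Finset.sum_nonneg fun w _ => mul_self_nonneg _
    positivity
  -- ⟨y, M y⟩ = Λ
  have h1 : ∑ w ∈ B, (∑ j, A w j * y j) ^ 2 = Λ := by
    have : ∀ w, (∑ j, A w j * y j) ^ 2 = ∑ j, ∑ k, (A w j * A w k) * (y j * y k) := by
      intro w
      rw [sq, Finset.sum_mul_sum]
      refine Finset.sum_congr rfl fun j _ => Finset.sum_congr rfl fun k _ => ?_
      ring
    simp only [this]
    rw [Finset.sum_comm]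
    refine Finset.sum_congr rfl fun j _ => ?_
    rw [Finset.sum_comm]
    have h2 : ∀ k, ∑ w ∈ B, (A w j * A w k) * (y j * y k) = (if j = k then μ j else 0) * (y j * y k) := by
      intro k
      rw [← h j k, Finset.sum_mul]
    simp only [h2]
    rw [Finset.sum_eq_single j]
    · simp only [if_true, hy]
      by_cases hj : μ j = 0
      · simp [hj]
      · field_simp
    · intro k _ hk
      simp [Ne.symm hk]
    · intro hj
      exact absurd (Finset.mem_univ j) hj
  -- ⟨vt v, y⟩ = Λ
  have h2 : ∑ j, A v j * y j = Λ := by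
    refine Finset.sum_congr rfl fun j _ => ?_
    simp only [hy]
    ring
  have h3 : Λ ^ 2 ≤ Λ := by
    calc Λ ^ 2 = (∑ j, A v j * y j) ^ 2 := by rw [h2]
      _ ≤ ∑ w ∈ B, (∑ j, A w j * y j) ^ 2 :=
          Finset.single_le_sum (f := fun w => (∑ j, A w j * y j) ^ 2)
            (fun w _ => sq_nonneg _) hv
      _ = Λ := h1
  by_contra hc
  push Not at hc
  nlinarith

/-- Leverage rows.  `U` is orthogonal, `β j * l v j = ⟪vt v, u j⟫`, the columns of `l` have square
norm at most `‖vt v‖ ^ 2 + 1`, and the square weights sum to at most the trace. -/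
theorem leverage_rows (B : Finset ι) (vt : ι → Fin d → ℝ) :
    ∃ (U : Fin d → Fin d → ℝ) (l : ι → Fin d → ℝ) (β : Fin d → ℝ),
      (∀ x : Fin d → ℝ, ∑ j, (∑ i, x i * U j i) ^ 2 = ∑ i, x i ^ 2) ∧
      (∀ j, 0 ≤ β j) ∧ (∀ j, β j ≤ 1) ∧
      (∑ j, β j ^ 2 ≤ ∑ v ∈ B, ∑ i, vt v i ^ 2) ∧
      (∀ v ∈ B, ∑ j, l v j ^ 2 ≤ ∑ i, vt v i ^ 2 + 1) ∧
      (∀ v ∈ B, ∀ j, β j * l v j = ∑ i, vt v i * U j i) := by
  classical
  obtain ⟨U, μ, hP, hM⟩ := spectral_rows B vt
  set A : ι → Fin d → ℝ := fun v j => ∑ i, vt v i * U j i with hA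
  have hM' : ∀ j k, ∑ w ∈ B, A w j * A w k = if j = k then μ j else 0 := hM
  have hμ : ∀ j, 0 ≤ μ j := by
    intro j
    have h1 := hM' j j
    simp only [if_true] at h1
    rw [← h1]
    exact Finset.sum_nonneg fun w _ => mul_self_nonneg _
  have hμ0 : ∀ j, μ j = 0 → ∀ v ∈ B, A v j = 0 := by
    intro j hj v hv
    have h1 := hM' j j
    simp only [if_true, hj] at h1
    have h2 : ∀ w ∈ B, 0 ≤ A w j * A w j := fun w _ => mul_self_nonneg _
    have h3 := (Finset.sum_eq_zero_iff_of_nonneg h2).1 h1 v hv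
    exact mul_self_eq_zero.1 h3
  have hPv : ∀ v, ∑ j, A v j ^ 2 = ∑ i, vt v i ^ 2 := fun v => hP (vt v)
  have htr : ∑ j, μ j = ∑ v ∈ B, ∑ i, vt v i ^ 2 := by
    have : ∀ j, μ j = ∑ w ∈ B, A w j ^ 2 := by
      intro j
      have h1 := hM' j j
      simp only [if_true] at h1
      rw [← h1]
      exact Finset.sum_congr rfl fun w _ => by ring
    simp only [this]
    rw [Finset.sum_comm]
    exact Finset.sum_congr rfl fun v _ => hPv v
  set w : Fin d → ℝ := fun j => if μ j = 0 then 0 else √(1 + 1 / μ j) with hw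
  set β : Fin d → ℝ := fun j => if μ j = 0 then 0 else 1 / √(1 + 1 / μ j) with hβ
  refine ⟨U, fun v j => w j * A v j, β, hP, fun j => ?_, fun j => ?_, ?_, fun v hv => ?_,
    fun v hv j => ?_⟩
  · simp only [hβ]
    split_ifs
    · exact le_rfl
    · positivity
  · simp only [hβ]
    split_ifs with h0
    · exact zero_le_one
    · have h1 : 0 < μ j := lt_of_le_of_ne (hμ j) (Ne.symm h0)
      have h2 : 1 ≤ √(1 + 1 / μ j) := by
        rw [Real.one_le_sqrt]
        have : 0 < 1 / μ j := by positivity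
        linarith
      rw [div_le_one (by linarith)]
      exact h2
  · rw [← htr]
    refine Finset.sum_le_sum fun j _ => ?_
    simp only [hβ]
    split_ifs with h0
    · simp [h0]
    · have h1 : 0 < μ j := lt_of_le_of_ne (hμ j) (Ne.symm h0)
      have h2 : 0 < 1 / μ j := by positivity
      rw [div_pow, Real.sq_sqrt (by linarith), one_pow]
      rw [div_le_iff₀ (by linarith)]
      have : μ j * (1 + 1 / μ j) = μ j + 1 := by field_simp
      nlinarith
  · have hL := leverage_le B A μ hM' hv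
    calc ∑ j, (w j * A v j) ^ 2 = ∑ j, (A v j ^ 2 + A v j ^ 2 / μ j) := by
          refine Finset.sum_congr rfl fun j _ => ?_
          by_cases h0 : μ j = 0
          · simp [hw, h0, hμ0 j h0 v hv]
          · have h1 : 0 < μ j := lt_of_le_of_ne (hμ j) (Ne.symm h0)
            have h2 : 0 < 1 / μ j := by positivity
            simp only [hw, if_neg h0]
            rw [mul_pow, Real.sq_sqrt (by linarith)]
            field_simp
      _ = ∑ j, A v j ^ 2 + ∑ j, A v j ^ 2 / μ j := Finset.sum_add_distrib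
      _ ≤ ∑ i, vt v i ^ 2 + 1 := by
          rw [hPv]
          linarith
  · by_cases h0 : μ j = 0
    · simp only [hβ, if_pos h0]
      have := hμ0 j h0 v hv
      simp only [hA] at this
      rw [this]
      ring
    · have h1 : 0 < μ j := lt_of_le_of_ne (hμ j) (Ne.symm h0)
      have h2 : 0 < 1 / μ j := by positivity
      have h3 : 0 < √(1 + 1 / μ j) := Real.sqrt_pos.2 (by linarith)
      simp only [hβ, hw, if_neg h0]
      field_simp
      rfl

/-- The quadratic potential in the rotated rows equals the squared norm of the displacement. -/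
theorem leverage_potential (B : Finset ι) (vt : ι → Fin d → ℝ) (U : Fin d → Fin d → ℝ)
    (l : ι → Fin d → ℝ) (β : Fin d → ℝ)
    (hP : ∀ x : Fin d → ℝ, ∑ j, (∑ i, x i * U j i) ^ 2 = ∑ i, x i ^ 2)
    (hl : ∀ v ∈ B, ∀ j, β j * l v j = ∑ i, vt v i * U j i)
    (c : Fin d → ℝ) (e : ι → ℝ) :
    ∑ j, ((∑ i, c i * U j i) + β j * ∑ v ∈ B, e v * l v j) ^ 2
      = ∑ i, (c i + ∑ v ∈ B, e v * vt v i) ^ 2 := by
  rw [← hP (fun i => c i + ∑ v ∈ B, e v * vt v i)]
  refine Finset.sum_congr rfl fun j _ => ?_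
  congr 1
  have h1 : β j * ∑ v ∈ B, e v * l v j = ∑ v ∈ B, e v * ∑ i, vt v i * U j i := by
    rw [Finset.mul_sum]
    refine Finset.sum_congr rfl fun v hv => ?_
    rw [← hl v hv j]
    ring
  rw [h1]
  have h2 : ∑ v ∈ B, e v * ∑ i, vt v i * U j i = ∑ i, (∑ v ∈ B, e v * vt v i) * U j i := by
    simp only [Finset.mul_sum, Finset.sum_mul]
    rw [Finset.sum_comm]
    refine Finset.sum_congr rfl fun i _ => Finset.sum_congr rfl fun v _ => ?_
    ring
  rw [h2, ← Finset.sum_add_distrib]
  refine Finset.sum_congr rfl fun i _ => ?_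
  ring

end Vale.Agent.P262R
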