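import Vale.Agent.P262H.KR

open MeasureTheory ProbabilityTheory Finset

namespace Vale.Agent.P262R

open Vale.Agent.P262.FB (Eu Adm fb_main)
open Vale.Agent.P262H (Pot Pot_nonneg GPot GPot_eq GPot_adm GPot_integral geom_quarter)

variable {D : ℕ}

/-- The quadratic potential `∑ (c_e + β_e x_e)^2`. -/
noncomputable def Qf (β c x : Fin D → ℝ) : ℝ := ∑ e, (c e + β e * x e) ^ 2

lemma Qf_nonneg (β c x : Fin D → ℝ) : 0 ≤ Qf β c x :=
  Finset.sum_nonneg fun _ _ => sq_nonneg _

lemma coord_integrable (f : ℝ → ℝ) (hf : Continuous f) (hi : Integrable f (gaussianReal 0 1))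
    (e : Fin D) : Integrable (fun z : Eu D => f (z e)) (stdGaussian (Eu D)) := by
  rw [← map_pi_eq_stdGaussian]
  have hm : Measurable (WithLp.toLp 2 : (Fin D → ℝ) → Eu D) :=
    (PiLp.continuous_toLp 2 _).measurable
  have hc : Continuous (fun z : Eu D => f (z e)) := by fun_prop
  rw [integrable_map_measure hc.aestronglyMeasurable hm.aemeasurable]
  have hp := measurePreserving_eval (fun _ : Fin D => gaussianReal 0 1) e
  exact (hp.integrable_comp hf.aestronglyMeasurable).mpr hi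

lemma coord_integral (f : ℝ → ℝ) (hf : Continuous f) (e : Fin D) :
    ∫ z : Eu D, f (z e) ∂(stdGaussian (Eu D)) = ∫ x, f x ∂(gaussianReal 0 1) := by
  rw [← map_pi_eq_stdGaussian]
  have hm : Measurable (WithLp.toLp 2 : (Fin D → ℝ) → Eu D) :=
    (PiLp.continuous_toLp 2 _).measurable
  have hc : Continuous (fun z : Eu D => f (z e)) := by fun_prop
  rw [integral_map hm.aemeasurable hc.aestronglyMeasurable]
  have hp := measurePreserving_eval (fun _ : Fin D => gaussianReal 0 1) e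
  have h0 := integral_map (μ := Measure.pi fun _ : Fin D => gaussianReal 0 1) hp.aemeasurable
    (f := f) hf.aestronglyMeasurable
  rw [hp.map_eq] at h0
  exact h0.symm

lemma gauss_id_integrable : Integrable (fun x : ℝ => x) (gaussianReal 0 1) := by
  have h : MemLp id 1 (gaussianReal 0 1) := by
    simpa using (memLp_id_gaussianReal (μ := 0) (v := 1) 1)
  exact memLp_one_iff_integrable.1 h

lemma gauss_sq_integrable : Integrable (fun x : ℝ => x ^ 2) (gaussianReal 0 1) := by
  have := (memLp_id_gaussianReal (μ := 0) (v := 1) 2).integrable_sq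
  simpa using this

lemma gauss_sq_integral : ∫ x, x ^ 2 ∂(gaussianReal 0 1) = 1 := by
  have h1 := variance_id_gaussianReal (μ := 0) (v := 1)
  rw [variance_eq_sub (memLp_id_gaussianReal (μ := 0) (v := 1) 2)] at h1
  simp only [id, integral_id_gaussianReal] at h1
  simp only [Pi.pow_apply, id] at h1
  simpa using h1

lemma square_integrable (a b : ℝ) : Integrable (fun x : ℝ => (a + b * x) ^ 2) (gaussianReal 0 1) := by
  have h1 := gauss_sq_integrable.const_mul (b ^ 2)
  have h2 := gauss_id_integrable.const_mul (2 * a * b)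
  have h3 : Integrable (fun _ : ℝ => a ^ 2) (gaussianReal 0 1) := integrable_const _
  refine ((h3.add h2).add h1).congr (Filter.Eventually.of_forall fun x => ?_)
  simp only [Pi.add_apply]
  ring

lemma square_integral (a b : ℝ) : ∫ x, (a + b * x) ^ 2 ∂(gaussianReal 0 1) = a ^ 2 + b ^ 2 := by
  have h1 := gauss_sq_integrable.const_mul (b ^ 2)
  have h2 := gauss_id_integrable.const_mul (2 * a * b)
  have h3 : Integrable (fun _ : ℝ => a ^ 2) (gaussianReal 0 1) := integrable_const _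
  have e : (fun x : ℝ => (a + b * x) ^ 2) = fun x => a ^ 2 + 2 * a * b * x + b ^ 2 * x ^ 2 := by
    funext x
    ring
  have h4 : Integrable (fun x : ℝ => a ^ 2 + 2 * a * b * x) (gaussianReal 0 1) := h3.add h2
  rw [e, integral_add h4 h1, integral_add h3 h2, integral_const_mul, integral_const_mul,
    gauss_sq_integral, integral_id_gaussianReal]
  simp

/-- The square of an affine coordinate is admissible. -/
lemma adm_sq (a b : ℝ) (e : Fin D) : Adm (fun z : Eu D => (a + b * z e) ^ 2) where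
  convex := by
    refine ⟨convex_univ, fun x _ y _ r s hr hs hrs => ?_⟩
    simp only [smul_eq_mul, PiLp.add_apply, PiLp.smul_apply]
    have hs' : s = 1 - r := by linarith
    subst hs'
    nlinarith [mul_nonneg hr hs, sq_nonneg (b * x e - b * y e)]
  nonneg := fun z => sq_nonneg _
  integ := by
    intro v
    have h := coord_integrable (D := D) (fun x => (a + b * v e + b * x) ^ 2) (by fun_prop)
      (square_integrable (a + b * v e) b) e
    refine h.congr (Filter.Eventually.of_forall fun z => ?_)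
    simp only [PiLp.add_apply]
    ring

lemma sq_coord_integral (a b : ℝ) (e : Fin D) :
    ∫ z : Eu D, (a + b * z e) ^ 2 ∂(stdGaussian (Eu D)) = a ^ 2 + b ^ 2 := by
  rw [coord_integral (fun x => (a + b * x) ^ 2) (by fun_prop) e, square_integral]

/-- The quadratic potential after a Gaussian shift. -/
lemma GQ_adm (β c x : Fin D → ℝ) (ρ : ℝ) :
    Adm (fun z : Eu D => ∑ e, ((c e + β e * x e) + (β e * ρ) * z e) ^ 2) :=
  Vale.Agent.P262.FB.Adm.sum (E := Eu D) (Finset.univ : Finset (Fin D)) _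
    (fun e _ => adm_sq _ _ e)

lemma GQ_integral (β c x : Fin D → ℝ) (ρ : ℝ) :
    ∫ z : Eu D, ∑ e, ((c e + β e * x e) + (β e * ρ) * z e) ^ 2 ∂(stdGaussian (Eu D))
      = Qf β c x + ρ ^ 2 * ∑ e, β e ^ 2 := by
  rw [integral_finsetSum]
  · unfold Qf
    rw [Finset.mul_sum, ← Finset.sum_add_distrib]
    refine Finset.sum_congr rfl fun e _ => ?_
    rw [sq_coord_integral]
    ring
  · intro e _
    exact coord_integrable (fun w => ((c e + β e * x e) + (β e * ρ) * w) ^ 2) (by fun_prop)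
      (square_integrable _ _) e

/-- One application of the N-free signing theorem to the combined potential. -/
theorem sign_step_q (n : ℕ) (l : ℕ → Fin D → ℝ) (hl : ∀ j, ∑ e, l j e ^ 2 ≤ 1) (t h A κ : ℝ)
    (hA : 0 ≤ A) (hκ : 0 ≤ κ) (β c x : Fin D → ℝ) :
    ∃ ε : ℕ → ℝ, (∀ i, ε i = 1 ∨ ε i = -1) ∧
      A * Qf β c (fun e => x e + h * ∑ j ∈ range n, ε j * l j e)
        + κ * Pot t (fun e => x e + h * ∑ j ∈ range n, ε j * l j e)
      ≤ A * (Qf β c x + 100 / 9 * h ^ 2 * ∑ e, β e ^ 2)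
        + κ * (Pot t x * Real.exp (50 / 9 * t ^ 2 * h ^ 2)) := by
  cases n with
  | zero =>
    refine ⟨fun _ => 1, fun _ => Or.inl rfl, ?_⟩
    simp only [range_zero, Finset.sum_empty, mul_zero, add_zero]
    have h1 : 1 ≤ Real.exp (50 / 9 * t ^ 2 * h ^ 2) := Real.one_le_exp (by positivity)
    have h2 : 0 ≤ 100 / 9 * h ^ 2 * ∑ e, β e ^ 2 :=
      mul_nonneg (by positivity) (Finset.sum_nonneg fun _ _ => sq_nonneg _)
    have h3 := Pot_nonneg t x
    have h4 : A * Qf β c x ≤ A * (Qf β c x + 100 / 9 * h ^ 2 * ∑ e, β e ^ 2) :=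
      mul_le_mul_of_nonneg_left (by linarith) hA
    have h5 : κ * Pot t x ≤ κ * (Pot t x * Real.exp (50 / 9 * t ^ 2 * h ^ 2)) :=
      mul_le_mul_of_nonneg_left (by nlinarith) hκ
    linarith
  | succ m =>
    set ρ : ℝ := h / (3 / 10) with hρ
    let u : ℕ → Eu D := fun j => (3 / 10 : ℝ) • WithLp.toLp 2 (l j)
    have hu : ∀ i, ‖u i‖ ≤ 3 / 10 := by
      intro i
      have h0 : ‖(WithLp.toLp 2 (l i) : Eu D)‖ ≤ 1 := by
        have h1 : ‖(WithLp.toLp 2 (l i) : Eu D)‖ ^ 2 ≤ 1 := by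
          rw [EuclideanSpace.real_norm_sq_eq]
          exact hl i
        nlinarith [norm_nonneg (WithLp.toLp 2 (l i) : Eu D)]
      simp only [u]
      rw [norm_smul, Real.norm_eq_abs, abs_of_pos (by norm_num : (0 : ℝ) < 3 / 10)]
      nlinarith [norm_nonneg (WithLp.toLp 2 (l i) : Eu D)]
    let G : Eu D → ℝ := fun z => A * ∑ e, ((c e + β e * x e) + (β e * ρ) * z e) ^ 2
      + κ * GPot t ρ x z
    have hG : Adm G := ((GQ_adm β c x ρ).smul hA).add ((GPot_adm t ρ x).smul hκ)
    have hGint : ∫ z, G z ∂(stdGaussian (Eu D))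
        = A * (Qf β c x + ρ ^ 2 * ∑ e, β e ^ 2) + κ * (Pot t x * Real.exp ((t * ρ) ^ 2 / 2)) := by
      simp only [G]
      have hi1 : Integrable (fun z : Eu D => A * ∑ e, ((c e + β e * x e) + (β e * ρ) * z e) ^ 2)
          (stdGaussian (Eu D)) := (GQ_adm β c x ρ).integrable.const_mul _
      have hi2 : Integrable (fun z : Eu D => κ * GPot t ρ x z) (stdGaussian (Eu D)) :=
        (GPot_adm t ρ x).integrable.const_mul _
      rw [integral_add hi1 hi2, integral_const_mul, integral_const_mul, GQ_integral, GPot_integral]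
    let g : ℕ → Eu D → ℝ := fun s z => if s = m then G z else 0
    have hg : ∀ i, Adm (g i) := by
      intro i
      by_cases hi : i = m
      · simp only [g, hi, if_true]
        exact hG
      · simp only [g, hi, if_false]
        exact Vale.Agent.P262.FB.Adm.zero
    obtain ⟨ε, hε, hsum⟩ := fb_main u g hu hg (m + 1)
    refine ⟨ε, hε, ?_⟩
    have hL : ∑ s ∈ range (m + 1), g s (∑ i ∈ range (s + 1), ε i • u i)
        = G (∑ i ∈ range (m + 1), ε i • u i) := by
      rw [Finset.sum_eq_single m]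
      · simp [g]
      · intro b _ hb
        simp [g, hb]
      · simp
    have hR : ∑ s ∈ range (m + 1), ∫ z, g s z ∂(stdGaussian (Eu D))
        = ∫ z, G z ∂(stdGaussian (Eu D)) := by
      rw [Finset.sum_eq_single m]
      · simp only [g, if_true]
      · intro b _ hb
        simp [g, hb]
      · simp
    rw [hL, hR, hGint] at hsum
    have e0 : ∀ e, (∑ i ∈ range (m + 1), ε i • u i) e
        = ∑ i ∈ range (m + 1), ε i * ((3 / 10 : ℝ) * l i e) := by
      intro e
      rw [WithLp.ofLp_sum]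
      simp [u, Finset.sum_apply]
    have e1 : ∀ e, ρ * (∑ i ∈ range (m + 1), ε i • u i) e = h * ∑ j ∈ range (m + 1), ε j * l j e := by
      intro e
      rw [e0, hρ, Finset.mul_sum, Finset.mul_sum]
      refine Finset.sum_congr rfl fun j _ => ?_
      field_simp
    have e2 : G (∑ i ∈ range (m + 1), ε i • u i)
        = A * Qf β c (fun e => x e + h * ∑ j ∈ range (m + 1), ε j * l j e)
          + κ * Pot t (fun e => x e + h * ∑ j ∈ range (m + 1), ε j * l j e) := by
      have eQ : ∑ e, ((c e + β e * x e) + (β e * ρ) * (∑ i ∈ range (m + 1), ε i • u i) e) ^ 2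
          = Qf β c (fun e => x e + h * ∑ j ∈ range (m + 1), ε j * l j e) := by
        unfold Qf
        refine Finset.sum_congr rfl fun e _ => ?_
        show _ = (c e + β e * (x e + h * ∑ j ∈ range (m + 1), ε j * l j e)) ^ 2
        rw [← e1 e]
        ring
      have eP : (fun e => x e + ρ * (∑ i ∈ range (m + 1), ε i • u i) e)
          = fun e => x e + h * ∑ j ∈ range (m + 1), ε j * l j e := by
        funext e
        rw [e1]
      simp only [G]
      rw [GPot_eq, eQ, eP]
    rw [e2] at hsum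
    refine hsum.trans (le_of_eq ?_)
    have e3 : ρ ^ 2 = 100 / 9 * h ^ 2 := by
      rw [hρ]
      field_simp
      ring
    have e4 : (t * ρ) ^ 2 / 2 = 50 / 9 * t ^ 2 * h ^ 2 := by
      rw [mul_pow, e3]
      ring
    rw [e3, e4]

variable {ι : Type*} [DecidableEq ι]

/-- The signing step indexed by a finite set. -/
theorem sign_step_set_q (S : Finset ι) (l : ι → Fin D → ℝ) (hl : ∀ v, ∑ e, l v e ^ 2 ≤ 1)
    (t h A κ : ℝ) (hA : 0 ≤ A) (hκ : 0 ≤ κ) (β c x : Fin D → ℝ) :
    ∃ ε : ι → ℝ, (∀ v, ε v = 1 ∨ ε v = -1) ∧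
      A * Qf β c (fun e => x e + h * ∑ v ∈ S, ε v * l v e)
        + κ * Pot t (fun e => x e + h * ∑ v ∈ S, ε v * l v e)
      ≤ A * (Qf β c x + 100 / 9 * h ^ 2 * ∑ e, β e ^ 2)
        + κ * (Pot t x * Real.exp (50 / 9 * t ^ 2 * h ^ 2)) := by
  classical
  let n := S.card
  let f : Fin n ≃ S := S.equivFin.symm
  let l' : ℕ → Fin D → ℝ := fun j => if hj : j < n then l (f ⟨j, hj⟩).1 else 0
  have hl' : ∀ j, ∑ e, l' j e ^ 2 ≤ 1 := by
    intro j
    by_cases hj : j < n
    · simp only [l', hj, dif_pos]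
      exact hl _
    · simp [l', hj]
  obtain ⟨ε, hε, hb⟩ := sign_step_q n l' hl' t h A κ hA hκ β c x
  let ε' : ι → ℝ := fun v => if hv : v ∈ S then ε (S.equivFin ⟨v, hv⟩).1 else 1
  refine ⟨ε', ?_, ?_⟩
  · intro v
    by_cases hv : v ∈ S
    · simp only [ε', hv, dif_pos]
      exact hε _
    · simp [ε', hv]
  · have e1 : ∀ e, ∑ j ∈ range n, ε j * l' j e = ∑ v ∈ S, ε' v * l v e := by
      intro e
      rw [Finset.sum_range, ← Finset.sum_coe_sort S, ← Equiv.sum_comp f]
      refine Finset.sum_congr rfl fun j _ => ?_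
      have hv : (f j).1 ∈ S := (f j).2
      simp only [l', j.2, dif_pos, ε', hv]
      have : S.equivFin ⟨(f j).1, hv⟩ = j := by
        simp [f]
      rw [this]
    simp only [e1] at hb
    exact hb

/-- Digit by digit rounding of a dyadic fractional start, for the combined potential. -/
theorem digits_q (B : Finset ι) (l : ι → Fin D → ℝ) (hl : ∀ v, ∑ e, l v e ^ 2 ≤ 1) (t A : ℝ)
    (hA : 0 ≤ A) (β c : Fin D → ℝ) (K : ℕ) :
    ∀ (y : ι → ℝ), (∀ v ∈ B, 0 ≤ y v ∧ y v ≤ 1 ∧ ∃ m : ℤ, y v * 2 ^ K = m) →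
      ∀ (x : Fin D → ℝ) (κ : ℝ), 0 ≤ κ →
      ∃ L ⊆ B,
        A * Qf β c (fun e => x e + ∑ v ∈ B, ((if v ∈ L then 1 else 0) - y v) * l v e)
          + κ * Pot t (fun e => x e + ∑ v ∈ B, ((if v ∈ L then 1 else 0) - y v) * l v e)
        ≤ A * (Qf β c x + 100 / 9 * (∑ k ∈ range K, (1 / 4 : ℝ) ^ (k + 1)) * ∑ e, β e ^ 2)
          + κ * (Pot t x * Real.exp (50 / 9 * t ^ 2 * ∑ k ∈ range K, (1 / 4 : ℝ) ^ (k + 1))) := by
  classical
  induction K with
  | zero =>
    intro y hy x κ hκ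
    refine ⟨B.filter (fun v => y v = 1), Finset.filter_subset _ _, ?_⟩
    have h0 : ∀ v ∈ B, ((if v ∈ B.filter (fun v => y v = 1) then 1 else 0) - y v) = 0 := by
      intro v hv
      obtain ⟨h1, h2, m, hm⟩ := hy v hv
      simp only [pow_zero, mul_one] at hm
      have hm0 : (0 : ℤ) ≤ m := by
        have : (0 : ℝ) ≤ m := hm ▸ h1
        exact_mod_cast this
      have hm1 : m ≤ 1 := by
        have : (m : ℝ) ≤ 1 := hm ▸ h2
        exact_mod_cast this
      have hcases : m = 0 ∨ m = 1 := by omega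
      rcases hcases with rfl | rfl
      · have : y v = 0 := by simpa using hm
        simp [this, hv]
      · have : y v = 1 := by simpa using hm
        simp [this, hv]
    have e1 : ∀ e, ∑ v ∈ B, ((if v ∈ B.filter (fun v => y v = 1) then (1 : ℝ) else 0) - y v) * l v e = 0 := by
      intro e
      refine Finset.sum_eq_zero fun v hv => ?_
      rw [h0 v hv, zero_mul]
    simp only [e1, add_zero, range_zero, Finset.sum_empty, mul_zero, Real.exp_zero, mul_one,
      zero_mul]
    exact le_rfl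
  | succ K ih =>
    intro y hy x κ hκ
    set h : ℝ := (1 / 2 : ℝ) ^ (K + 1) with hh
    have hh0 : 0 < h := by positivity
    have hh2 : h * 2 ^ (K + 1) = 1 := by
      rw [hh, ← mul_pow]; norm_num
    let S := B.filter (fun v => ∃ m : ℤ, Odd m ∧ y v * 2 ^ (K + 1) = m)
    set SK : ℝ := ∑ k ∈ range K, (1 / 4 : ℝ) ^ (k + 1) with hSK
    set κ' : ℝ := κ * Real.exp (50 / 9 * t ^ 2 * SK) with hκ'
    have hκ'0 : 0 ≤ κ' := mul_nonneg hκ (Real.exp_pos _).le
    obtain ⟨ε, hε, hb⟩ := sign_step_set_q S l hl t h A κ' hA hκ'0 β c x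
    let y' : ι → ℝ := fun v => if v ∈ S then y v + h * ε v else y v
    have hy' : ∀ v ∈ B, 0 ≤ y' v ∧ y' v ≤ 1 ∧ ∃ m : ℤ, y' v * 2 ^ K = m := by
      intro v hv
      obtain ⟨h1, h2, m, hm⟩ := hy v hv
      have h2K : (0 : ℝ) < 2 ^ K := by positivity
      have hpow : (2 : ℝ) ^ (K + 1) = 2 * 2 ^ K := by rw [pow_succ]; ring
      by_cases hvS : v ∈ S
      · obtain ⟨-, m', hodd, hm'⟩ := Finset.mem_filter.mp hvS
        have hm'0 : (0 : ℝ) ≤ m' := by rw [← hm']; positivity
        have hm'0' : (0 : ℤ) ≤ m' := by exact_mod_cast hm'0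
        have hm'1 : (m' : ℝ) ≤ 2 ^ (K + 1) := by
          rw [← hm']
          have : (0 : ℝ) < 2 ^ (K + 1) := by positivity
          nlinarith
        have hm'1' : m' ≤ 2 ^ (K + 1) := by exact_mod_cast hm'1
        obtain ⟨c, hc⟩ := hodd
        have hev : (2 : ℤ) ^ (K + 1) = 2 * 2 ^ K := by rw [pow_succ]; ring
        have hlo : (1 : ℤ) ≤ m' := by omega
        have hhi : m' + 1 ≤ 2 ^ (K + 1) := by omega
        have hlo' : (1 : ℝ) ≤ m' := by exact_mod_cast hlo
        have hhi' : (m' : ℝ) + 1 ≤ 2 ^ (K + 1) := by exact_mod_cast hhi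
        have hyv : y v = m' * h := by
          have : y v * (2 ^ (K + 1) * h) = m' * h := by rw [← mul_assoc, hm']
          rw [mul_comm (2 ^ (K + 1) : ℝ) h, hh2, mul_one] at this
          exact this
        simp only [y', hvS, if_true]
        rcases hε v with he | he
        · rw [he]
          refine ⟨by positivity, ?_, c + 1, ?_⟩
          · rw [hyv]
            have : ((m' : ℝ) + 1) * h ≤ 2 ^ (K + 1) * h := mul_le_mul_of_nonneg_right hhi' hh0.le
            rw [mul_comm ((2 : ℝ) ^ (K + 1)) h, hh2] at this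
            linarith
          · have e1 : h * 2 ^ K = 1 / 2 := by
              rw [hh, pow_succ, mul_assoc, mul_comm, mul_assoc, ← mul_pow]; norm_num
            have e2 : (m' : ℝ) = 2 * c + 1 := by rw [hc]; push_cast; ring
            have e3 : y v * 2 ^ K = m' / 2 := by
              have : y v * (2 * 2 ^ K) = m' := by rw [← hpow]; exact hm'
              linarith
            calc (y v + h * 1) * 2 ^ K = y v * 2 ^ K + h * 2 ^ K := by ring
              _ = _ := by rw [e1, e3, e2]; push_cast; ring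
        · rw [he]
          refine ⟨?_, ?_, c, ?_⟩
          · rw [hyv]
            have : (1 : ℝ) * h ≤ m' * h := mul_le_mul_of_nonneg_right hlo' hh0.le
            linarith
          · linarith
          · have e1 : h * 2 ^ K = 1 / 2 := by
              rw [hh, pow_succ, mul_assoc, mul_comm, mul_assoc, ← mul_pow]; norm_num
            have e2 : (m' : ℝ) = 2 * c + 1 := by rw [hc]; push_cast; ring
            have e3 : y v * 2 ^ K = m' / 2 := by
              have : y v * (2 * 2 ^ K) = m' := by rw [← hpow]; exact hm'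
              linarith
            calc (y v + h * (-1)) * 2 ^ K = y v * 2 ^ K - h * 2 ^ K := by ring
              _ = _ := by rw [e1, e3, e2]; ring
      · simp only [y', hvS, if_false]
        refine ⟨h1, h2, ?_⟩
        have hnot : ¬ ∃ m : ℤ, Odd m ∧ y v * 2 ^ (K + 1) = m := by
          intro hex
          exact hvS (Finset.mem_filter.mpr ⟨hv, hex⟩)
        have heven : Even m := by
          by_contra hne
          exact hnot ⟨m, Int.not_even_iff_odd.mp hne, hm⟩
        obtain ⟨c, hc⟩ := heven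
        refine ⟨c, ?_⟩
        have : y v * (2 * 2 ^ K) = m := by rw [← hpow]; exact hm
        have e2 : (m : ℝ) = c + c := by rw [hc]; push_cast; ring
        linarith
    obtain ⟨L, hLB, hL⟩ := ih y' hy' (fun e => x e + h * ∑ v ∈ S, ε v * l v e) κ hκ
    refine ⟨L, hLB, ?_⟩
    have e1 : (fun e => x e + ∑ v ∈ B, ((if v ∈ L then 1 else 0) - y v) * l v e)
        = (fun e => (x e + h * ∑ v ∈ S, ε v * l v e)
            + ∑ v ∈ B, ((if v ∈ L then 1 else 0) - y' v) * l v e) := by
      funext e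
      have e2 : ∑ v ∈ B, ((if v ∈ L then 1 else 0) - y v) * l v e
          = ∑ v ∈ B, ((if v ∈ L then 1 else 0) - y' v) * l v e + ∑ v ∈ B, (y' v - y v) * l v e := by
        rw [← Finset.sum_add_distrib]
        refine Finset.sum_congr rfl fun v _ => ?_
        ring
      have e3 : ∑ v ∈ B, (y' v - y v) * l v e = h * ∑ v ∈ S, ε v * l v e := by
        rw [Finset.mul_sum]
        have hsub : S ⊆ B := Finset.filter_subset _ _
        rw [← Finset.sum_subset hsub]
        · refine Finset.sum_congr rfl fun v hv => ?_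
          simp only [y', hv, if_true]
          ring
        · intro v _ hv
          simp only [y', hv, if_false]
          ring
      rw [e2, e3]
      ring
    rw [e1]
    refine hL.trans ?_
    have hh4 : h ^ 2 = (1 / 4 : ℝ) ^ (K + 1) := by
      rw [hh, ← pow_mul, mul_comm, pow_mul]; norm_num
    have hSsucc : ∑ k ∈ range (K + 1), (1 / 4 : ℝ) ^ (k + 1) = SK + h ^ 2 := by
      rw [Finset.sum_range_succ, hh4]
    rw [hSsucc]
    have hexp : Real.exp (50 / 9 * t ^ 2 * (SK + h ^ 2))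
        = Real.exp (50 / 9 * t ^ 2 * SK) * Real.exp (50 / 9 * t ^ 2 * h ^ 2) := by
      rw [← Real.exp_add]
      congr 1
      ring
    rw [hexp]
    have e5 : κ * (Pot t (fun e => x e + h * ∑ v ∈ S, ε v * l v e) * Real.exp (50 / 9 * t ^ 2 * SK))
        = κ' * Pot t (fun e => x e + h * ∑ v ∈ S, ε v * l v e) := by
      rw [hκ']
      ring
    rw [e5]
    have e6 : κ * (Pot t x * (Real.exp (50 / 9 * t ^ 2 * SK) * Real.exp (50 / 9 * t ^ 2 * h ^ 2)))
        = κ' * (Pot t x * Real.exp (50 / 9 * t ^ 2 * h ^ 2)) := by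
      rw [hκ']
      ring
    rw [e6]
    have e7 := hb
    have hAmul : A * (Qf β c (fun e => x e + h * ∑ v ∈ S, ε v * l v e) + 100 / 9 * SK * ∑ e, β e ^ 2)
        = A * Qf β c (fun e => x e + h * ∑ v ∈ S, ε v * l v e) + A * (100 / 9 * SK * ∑ e, β e ^ 2) := by
      ring
    rw [hAmul]
    have hAmul2 : A * (Qf β c x + 100 / 9 * (SK + h ^ 2) * ∑ e, β e ^ 2)
        = A * (Qf β c x + 100 / 9 * h ^ 2 * ∑ e, β e ^ 2) + A * (100 / 9 * SK * ∑ e, β e ^ 2) := by
      ring
    rw [hAmul2]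
    linarith

/-- The rounded displacement. -/
def disp (B : Finset ι) (l : ι → Fin D → ℝ) (L : Finset ι) (y : ι → ℝ) : Fin D → ℝ :=
  fun e => ∑ v ∈ B, ((if v ∈ L then 1 else 0) - y v) * l v e

omit [DecidableEq ι] in
lemma Pot_zero (t : ℝ) : Pot t (fun _ : Fin D => (0 : ℝ)) = 2 * D := by
  simp [Pot]
  ring

lemma Qf_zero (β c : Fin D → ℝ) : Qf β c (fun _ => 0) = ∑ e, c e ^ 2 := by
  simp [Qf]

/-- **QKR**, the raw form: rounding against the sum of a quadratic and an exponential potential. -/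
theorem qkr_fin (B : Finset ι) (l : ι → Fin D → ℝ) (hl : ∀ v, ∑ e, l v e ^ 2 ≤ 1) (y : ι → ℝ)
    (hy : ∀ v ∈ B, 0 ≤ y v ∧ y v ≤ 1) (t A : ℝ) (hA : 0 ≤ A) (β c : Fin D → ℝ) :
    ∃ L ⊆ B, A * Qf β c (disp B l L y) + Pot t (disp B l L y)
      ≤ A * (∑ e, c e ^ 2 + 100 / 27 * ∑ e, β e ^ 2) + 2 * D * Real.exp (50 / 27 * t ^ 2) := by
  classical
  set Bd : ℝ := A * (∑ e, c e ^ 2 + 100 / 27 * ∑ e, β e ^ 2) + 2 * D * Real.exp (50 / 27 * t ^ 2)
    with hBd
  by_contra hcon
  push Not at hcon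
  -- dyadic approximations
  let yK : ℕ → ι → ℝ := fun K v => (⌊y v * 2 ^ K⌋ : ℝ) / 2 ^ K
  have hdiff : ∀ K v, |y v - yK K v| ≤ (1 / 2 : ℝ) ^ K := by
    intro K v
    have h2K : (0 : ℝ) < 2 ^ K := by positivity
    have h1 := Int.floor_le (y v * 2 ^ K)
    have h2 := Int.lt_floor_add_one (y v * 2 ^ K)
    have e : y v - yK K v = (y v * 2 ^ K - ⌊y v * 2 ^ K⌋) * (1 / 2 : ℝ) ^ K := by
      simp only [yK]
      have : (1 / 2 : ℝ) ^ K = 1 / 2 ^ K := by rw [one_div_pow]
      rw [this]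
      field_simp
    rw [e, abs_mul, abs_of_nonneg (by linarith : 0 ≤ y v * 2 ^ K - ⌊y v * 2 ^ K⌋),
      abs_of_pos (by positivity : (0 : ℝ) < (1 / 2) ^ K)]
    have : 0 < (1 / 2 : ℝ) ^ K := by positivity
    nlinarith
  have hlim : Filter.Tendsto yK Filter.atTop (nhds y) := by
    rw [tendsto_pi_nhds]
    intro v
    rw [tendsto_iff_dist_tendsto_zero]
    refine squeeze_zero (fun _ => dist_nonneg) (fun K => ?_)
      (tendsto_pow_atTop_nhds_zero_of_lt_one (by norm_num : (0 : ℝ) ≤ 1 / 2) (by norm_num))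
    rw [Real.dist_eq, abs_sub_comm]
    exact hdiff K v
  -- continuity of the potential in the fractional start
  let Fn : Finset ι → (ι → ℝ) → ℝ := fun L y' => A * Qf β c (disp B l L y') + Pot t (disp B l L y')
  have hcont : ∀ L, Continuous (Fn L) := by
    intro L
    simp only [Fn, Qf, Pot, disp]
    fun_prop
  have hev : ∀ᶠ K in Filter.atTop, ∀ L ∈ B.powerset, Bd < Fn L (yK K) := by
    rw [Filter.eventually_all_finset]
    intro L hL
    have h1 := hcon L (Finset.mem_powerset.1 hL)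
    exact ((hcont L).tendsto y).comp hlim |>.eventually_const_lt h1
  obtain ⟨K, hK⟩ := hev.exists
  have hyK : ∀ v ∈ B, 0 ≤ yK K v ∧ yK K v ≤ 1 ∧ ∃ m : ℤ, yK K v * 2 ^ K = m := by
    intro v hv
    obtain ⟨h1, h2⟩ := hy v hv
    have h2K : (0 : ℝ) < 2 ^ K := by positivity
    refine ⟨?_, ?_, ⌊y v * 2 ^ K⌋, ?_⟩
    · apply div_nonneg _ h2K.le
      have : (0 : ℤ) ≤ ⌊y v * 2 ^ K⌋ := Int.floor_nonneg.mpr (by positivity)
      exact_mod_cast this
    · rw [div_le_one h2K]
      have := Int.floor_le (y v * 2 ^ K)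
      nlinarith
    · simp only [yK]
      field_simp
  obtain ⟨L, hLB, hL⟩ := digits_q B l hl t A hA β c K (yK K) hyK (fun _ => 0) 1 zero_le_one
  have hL' : Fn L (yK K) ≤ Bd := by
    have e1 : (fun e => (fun _ : Fin D => (0 : ℝ)) e
        + ∑ v ∈ B, ((if v ∈ L then 1 else 0) - yK K v) * l v e) = disp B l L (yK K) := by
      funext e
      simp [disp]
    rw [e1, one_mul, one_mul, Qf_zero, Pot_zero] at hL
    refine hL.trans ?_
    have hG := geom_quarter K
    have hB2 : 0 ≤ ∑ e, β e ^ 2 := Finset.sum_nonneg fun _ _ => sq_nonneg _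
    have h1 : A * (∑ e, c e ^ 2 + 100 / 9 * (∑ k ∈ range K, (1 / 4 : ℝ) ^ (k + 1)) * ∑ e, β e ^ 2)
        ≤ A * (∑ e, c e ^ 2 + 100 / 27 * ∑ e, β e ^ 2) := by
      refine mul_le_mul_of_nonneg_left ?_ hA
      nlinarith
    have h2 : Real.exp (50 / 9 * t ^ 2 * ∑ k ∈ range K, (1 / 4 : ℝ) ^ (k + 1))
        ≤ Real.exp (50 / 27 * t ^ 2) := by
      apply Real.exp_le_exp.2
      nlinarith [sq_nonneg t]
    have h3 : (2 * (D : ℝ)) * Real.exp (50 / 9 * t ^ 2 * ∑ k ∈ range K, (1 / 4 : ℝ) ^ (k + 1))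
        ≤ 2 * D * Real.exp (50 / 27 * t ^ 2) :=
      mul_le_mul_of_nonneg_left h2 (by positivity)
    rw [hBd]
    linarith
  have := hK L (Finset.mem_powerset.2 hLB)
  linarith

/-- The real arithmetic behind the row bound of QKR. -/
lemma row_bound_real {t m Λ sV η sQ sB Φ D : ℝ} (ht0 : 0 < t) (ht2 : t ^ 2 = Λ) (ht4 : 2 ≤ t)
    (hm0 : 0 ≤ m) (hη : 0 < η) (hsV : 1 ≤ sV) (hsQ : sQ ≤ sV) (hsB : sB ≤ sV)
    (hD : 1 ≤ D) (hexpΛ : 16 * D * sV / η ≤ Real.exp Λ) (hΦ : Φ = 2 * D * Real.exp (50 / 27 * Λ))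
    (hη1 : η ≤ 1) (hpot : Real.exp (t * m) ≤ Φ * (1 + (2 * sQ * m + 100 / 27 * sB) / η)) :
    m ≤ 6 * t := by
  have hΦ0 : 0 < Φ := by rw [hΦ]; positivity
  have hb2 : 1 + (2 * sQ * m + 100 / 27 * sB) / η ≤ 8 * sV / η * (1 + m) := by
    have h1 : 2 * sQ * m + 100 / 27 * sB ≤ 2 * sV * m + 4 * sV := by
      have hmQ : sQ * m ≤ sV * m := mul_le_mul_of_nonneg_right hsQ hm0
      nlinarith
    have h2 : 1 ≤ sV / η := by
      rw [le_div_iff₀ hη]
      linarith
    have h3 : (2 * sQ * m + 100 / 27 * sB) / η ≤ (2 * sV * m + 4 * sV) / η :=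
      div_le_div_of_nonneg_right h1 hη.le
    have e : 8 * sV / η * (1 + m) = 8 * (sV / η) + 8 * (sV / η) * m := by ring
    have e2 : (2 * sV * m + 4 * sV) / η = 2 * (sV / η) * m + 4 * (sV / η) := by ring
    rw [e]
    rw [e2] at h3
    have h4 : 0 ≤ sV / η * m := by positivity
    nlinarith
  have hm1 : 1 + m ≤ Real.exp (t * m / 2) := by
    have h1 := Real.add_one_le_exp m
    have h2 : Real.exp m ≤ Real.exp (t * m / 2) := by
      apply Real.exp_le_exp.2
      nlinarith
    linarith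
  have hfinal : Real.exp (t * m) ≤ Real.exp (50 / 27 * Λ) * Real.exp Λ * Real.exp (t * m / 2) := by
    calc Real.exp (t * m) ≤ Φ * (1 + (2 * sQ * m + 100 / 27 * sB) / η) := hpot
      _ ≤ Φ * (8 * sV / η * (1 + m)) := mul_le_mul_of_nonneg_left hb2 hΦ0.le
      _ = Real.exp (50 / 27 * Λ) * (16 * D * sV / η) * (1 + m) := by
          rw [hΦ]
          field_simp
          ring
      _ ≤ Real.exp (50 / 27 * Λ) * Real.exp Λ * Real.exp (t * m / 2) := by
          have hp : 0 ≤ 1 + m := by linarith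
          have h3 : Real.exp (50 / 27 * Λ) * (16 * D * sV / η) ≤
              Real.exp (50 / 27 * Λ) * Real.exp Λ :=
            mul_le_mul_of_nonneg_left hexpΛ (Real.exp_pos _).le
          calc _ ≤ Real.exp (50 / 27 * Λ) * Real.exp Λ * (1 + m) :=
                mul_le_mul_of_nonneg_right h3 hp
            _ ≤ _ := mul_le_mul_of_nonneg_left hm1 (by positivity)
  rw [← Real.exp_add, ← Real.exp_add] at hfinal
  have h4 := Real.exp_le_exp.1 hfinal
  have h5 : t * m ≤ t * (6 * t) := by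
    have : t * t = Λ := by rw [← ht2]; ring
    nlinarith
  exact le_of_mul_le_mul_left h5 ht0

/-- Cauchy-Schwarz estimate for the decrease of the quadratic potential. -/
lemma Qf_decrease (β c x : Fin D → ℝ) (m : ℝ) (hm0 : 0 ≤ m) (he0 : ∀ e, |x e| ≤ m) :
    ∑ e, c e ^ 2 - Qf β c x ≤ 2 * (√(∑ e, c e ^ 2) * √(∑ e, β e ^ 2)) * m := by
  have h1 : Qf β c x = ∑ e, c e ^ 2 + 2 * ∑ e, c e * β e * x e + ∑ e, β e ^ 2 * x e ^ 2 := by
    unfold Qf
    rw [Finset.mul_sum, ← Finset.sum_add_distrib, ← Finset.sum_add_distrib]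
    refine Finset.sum_congr rfl fun e _ => ?_
    ring
  have h2 : 0 ≤ ∑ e, β e ^ 2 * x e ^ 2 :=
    Finset.sum_nonneg fun _ _ => by positivity
  have h3 : -∑ e, c e * β e * x e ≤ (√(∑ e, c e ^ 2) * √(∑ e, β e ^ 2)) * m := by
    have h4 : -∑ e, c e * β e * x e ≤ ∑ e, |c e| * |β e| * m := by
      rw [← Finset.sum_neg_distrib]
      refine Finset.sum_le_sum fun e _ => ?_
      have h5 : |x e| ≤ m := he0 e
      have h6 : -(c e * β e * x e) ≤ |c e * β e * x e| := neg_le_abs _
      rw [abs_mul, abs_mul] at h6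
      have h7 : |c e| * |β e| * |x e| ≤ |c e| * |β e| * m := by gcongr
      linarith
    rw [← Finset.sum_mul] at h4
    have h8 := Real.sum_mul_le_sqrt_mul_sqrt Finset.univ (fun e => |c e|) (fun e => |β e|)
    simp only [sq_abs] at h8
    have h9 : (∑ e, |c e| * |β e|) * m ≤ (√(∑ e, c e ^ 2) * √(∑ e, β e ^ 2)) * m :=
      mul_le_mul_of_nonneg_right h8 hm0
    linarith
  linarith

/-- **QKR**: simultaneous control of every row and of the quadratic potential. -/
theorem qkr (hD : 0 < D) (B : Finset ι) (l : ι → Fin D → ℝ) (hl : ∀ v, ∑ e, l v e ^ 2 ≤ 1)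
    (y : ι → ℝ) (hy : ∀ v ∈ B, 0 ≤ y v ∧ y v ≤ 1) (β c : Fin D → ℝ) (V η Λ : ℝ) (hV : 1 ≤ V)
    (hη : 0 < η) (hη1 : η ≤ 1) (hΛ : 4 ≤ Λ) (hΛ2 : Real.log (16 * D * √V / η) ≤ Λ)
    (hQ : ∑ e, c e ^ 2 ≤ V) (hB : ∑ e, β e ^ 2 ≤ V) :
    ∃ L ⊆ B, (∀ e, |disp B l L y e| ≤ 6 * √Λ) ∧
      Qf β c (disp B l L y) ≤ ∑ e, c e ^ 2 + 100 / 27 * ∑ e, β e ^ 2 + η * √(∑ e, β e ^ 2) := by
  classical
  have hDR : (1 : ℝ) ≤ D := by exact_mod_cast hD
  set t : ℝ := √Λ with ht
  have ht2 : t ^ 2 = Λ := Real.sq_sqrt (by linarith)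
  have ht0 : 0 < t := Real.sqrt_pos.2 (by linarith)
  have ht4 : 2 ≤ t := by
    apply Real.le_sqrt_of_sq_le
    linarith
  set B2 : ℝ := ∑ e, β e ^ 2 with hB2
  set Q0 : ℝ := ∑ e, c e ^ 2 with hQ0
  have hB20 : 0 ≤ B2 := Finset.sum_nonneg fun _ _ => sq_nonneg _
  have hQ00 : 0 ≤ Q0 := Finset.sum_nonneg fun _ _ => sq_nonneg _
  set Φ : ℝ := 2 * D * Real.exp (50 / 27 * Λ) with hΦ
  have hΦ0 : 0 < Φ := by positivity
  have hsV : 1 ≤ √V := by
    apply Real.le_sqrt_of_sq_le
    linarith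
  have hexpΛ : 16 * D * √V / η ≤ Real.exp Λ := by
    have hpos : 0 < 16 * D * √V / η := by positivity
    calc 16 * D * √V / η = Real.exp (Real.log (16 * D * √V / η)) := (Real.exp_log hpos).symm
      _ ≤ Real.exp Λ := Real.exp_le_exp.2 hΛ2
  have h2D : 2 * (D : ℝ) ≤ Real.exp Λ := by
    refine le_trans ?_ hexpΛ
    rw [le_div_iff₀ hη]
    nlinarith
  -- the largest coordinate
  have hne : (Finset.univ : Finset (Fin D)).Nonempty := ⟨⟨0, hD⟩, Finset.mem_univ _⟩
  have hexpcoord : ∀ (x : Fin D → ℝ) (e : Fin D), Real.exp (t * |x e|) ≤ Pot t x := by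
    intro x e
    unfold Pot
    have h0 : ∀ c ∈ (Finset.univ : Finset (Fin D)), 0 ≤ Real.exp (t * x c) + Real.exp (-(t * x c)) :=
      fun c _ => add_nonneg (Real.exp_pos _).le (Real.exp_pos _).le
    refine le_trans ?_ (Finset.single_le_sum h0 (Finset.mem_univ e))
    rcases abs_cases (x e) with ⟨h1, _⟩ | ⟨h1, _⟩
    · rw [h1]
      linarith [Real.exp_pos (-(t * x e))]
    · rw [h1]
      have : t * -x e = -(t * x e) := by ring
      rw [this]
      linarith [Real.exp_pos (t * x e)]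
  have hsΛ : 0 < √Λ := ht0
  have hst : √Λ * √Λ = Λ := Real.mul_self_sqrt (by linarith)
  by_cases hB0 : B2 = 0
  · -- no quadratic term at all
    obtain ⟨L, hLB, hL⟩ := qkr_fin B l hl y hy t 0 le_rfl β c
    simp only [zero_mul, zero_add] at hL
    rw [ht2] at hL
    refine ⟨L, hLB, ?_, ?_⟩
    · intro e
      have h1 := (hexpcoord (disp B l L y) e).trans hL
      have h3 : Real.exp (t * |disp B l L y e|) ≤ Real.exp (Λ + 50 / 27 * Λ) := by
        rw [Real.exp_add]
        refine h1.trans ?_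
        exact mul_le_mul_of_nonneg_right h2D (Real.exp_pos _).le
      have h4 := Real.exp_le_exp.1 h3
      have h5 : t * |disp B l L y e| ≤ t * (6 * √Λ) := by
        rw [← ht]
        nlinarith
      exact le_of_mul_le_mul_left h5 ht0
    · have hβ : ∀ e, β e = 0 := by
        intro e
        have h1 : β e ^ 2 ≤ B2 :=
          Finset.single_le_sum (f := fun e => β e ^ 2) (fun _ _ => sq_nonneg _) (Finset.mem_univ e)
        have h2 : β e ^ 2 = 0 := le_antisymm (by linarith) (sq_nonneg _)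
        exact pow_eq_zero_iff (by norm_num) |>.1 h2
      have : Qf β c (disp B l L y) = Q0 := by
        unfold Qf
        refine Finset.sum_congr rfl fun e _ => ?_
        rw [hβ e]
        ring
      rw [this, hB0]
      simp
  · have hB2pos : 0 < B2 := lt_of_le_of_ne hB20 (Ne.symm hB0)
    have hsB : 0 < √B2 := Real.sqrt_pos.2 hB2pos
    have hsBsq : √B2 * √B2 = B2 := Real.mul_self_sqrt hB20
    set A : ℝ := Φ / (η * √B2) with hA
    have hApos : 0 < A := by positivity
    obtain ⟨L, hLB, hL⟩ := qkr_fin B l hl y hy t A hApos.le β c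
    rw [ht2] at hL
    set x := disp B l L y with hx
    have hAΦ : A * (η * √B2) = Φ := by
      rw [hA]
      field_simp
    refine ⟨L, hLB, ?_, ?_⟩
    · -- rows
      obtain ⟨e0, -, he0⟩ := Finset.exists_max_image Finset.univ (fun e => |x e|) hne
      have hm0 : 0 ≤ |x e0| := abs_nonneg _
      have hCS := Qf_decrease β c x |x e0| hm0 (fun e => he0 e (Finset.mem_univ e))
      rw [← hQ0, ← hB2] at hCS
      have hA1 : A * √B2 = Φ / η := by
        rw [hA]
        field_simp
      have hA2 : A * B2 = Φ * √B2 / η := by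
        calc A * B2 = (A * √B2) * √B2 := by rw [mul_assoc, hsBsq]
          _ = _ := by rw [hA1]; ring
      have hpot : Real.exp (t * |x e0|) ≤ Φ * (1 + (2 * √Q0 * |x e0| + 100 / 27 * √B2) / η) := by
        have h1 := hexpcoord x e0
        have h3 : A * (Q0 - Qf β c x) ≤ A * (2 * (√Q0 * √B2) * |x e0|) :=
          mul_le_mul_of_nonneg_left hCS hApos.le
        have e1 : Φ * (1 + (2 * √Q0 * |x e0| + 100 / 27 * √B2) / η)
            = A * (2 * (√Q0 * √B2) * |x e0|) + 100 / 27 * (A * B2) + Φ := by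
          have e2 : A * (2 * (√Q0 * √B2) * |x e0|) = 2 * √Q0 * |x e0| * (A * √B2) := by ring
          rw [e2, hA1, hA2]
          field_simp
          ring
        rw [e1]
        have hL' : A * Qf β c x + Pot t x ≤ A * (Q0 + 100 / 27 * B2) + Φ := hL
        nlinarith
      have hsQ : √Q0 ≤ √V := Real.sqrt_le_sqrt hQ
      have hsB2 : √B2 ≤ √V := Real.sqrt_le_sqrt hB
      have h6 := row_bound_real ht0 ht2 ht4 hm0 hη hsV hsQ hsB2 hDR hexpΛ hΦ hη1 hpot
      intro e
      exact (he0 e (Finset.mem_univ e)).trans h6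
    · -- the quadratic potential
      have h1 := Pot_nonneg t x
      have h2 : A * Qf β c x ≤ A * (Q0 + 100 / 27 * B2) + Φ := by linarith
      have h3 : A * Qf β c x ≤ A * (Q0 + 100 / 27 * B2 + η * √B2) := by
        have : A * (Q0 + 100 / 27 * B2 + η * √B2) = A * (Q0 + 100 / 27 * B2) + Φ := by
          rw [← hAΦ]
          ring
        linarith
      exact le_of_mul_le_mul_left h3 hApos

end Vale.Agent.P262R
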